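import Vale.Agent.P313.NW.H427L.Fin3

/-!
The two general theorems: few random bits; all machines with polynomially small gaps.
-/

namespace Vale.Agent.P313.NW.ZL

open Vale.Agent.P313.NW.H427L

/-- Larger bounds, without the additive constant. -/
theorem decides_clean {D : RTM} {A : Set (List Bool)} {S S' : ℕ → ℝ} {e : ℕ} {C : ℝ}
    (h : D.Decides A (fun n => (2 : ℝ) ^ (e * S n + e)) (fun n => e * S n + e))
    (h1 : ∀ n, 1 ≤ S n) (hS : ∀ n, S n ≤ C * S' n) :
    D.Decides A (fun n => (2 : ℝ) ^ (2 * e * C * S' n)) (fun n => 2 * e * C * S' n) := by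
  have key : ∀ n, (e : ℝ) * S n + e ≤ 2 * e * C * S' n := by
    intro n
    have h2 := h1 n
    have h3 := hS n
    have h4 : (0 : ℝ) ≤ e := Nat.cast_nonneg e
    nlinarith [mul_le_mul_of_nonneg_left h3 h4]
  exact Z.decides_mono h
    (fun n => Real.rpow_le_rpow_of_exponent_le (by norm_num) (key n)) key

/-- MACHINES WITH FEW RANDOM BITS. -/
theorem few_coins {lam g : ℕ → ℕ} (hlam : LogConstructible lam) (hg : LogConstructible g)
    {k : ℕ} (hgk : ∀ n, g n ≤ k * Nat.log 2 (n + 2)) {a b : ℕ} (hb : 0 < b)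
    {M : RTM} {c : ℕ} (hM : M.Bounded (fun n => (n + 2) ^ c) (fun n => c * Nat.log 2 (n + 2)))
    (hcoin : ∀ (x : List Bool) (v : Bool),
      M.probAt x v ((x.length + 2) ^ c) (2 ^ lam x.length + 1) M.init = 0) :
    ∃ (A : Set (List Bool)) (D : RTM) (e : ℝ),
      D.Decides A
        (fun n => (2 : ℝ) ^ (e * (Real.logb 2 (n + 2) * (((lam n : ℝ) + g n) ^ ((1 : ℝ) / 3) +
          Real.sqrt (Real.logb 2 (Real.logb 2 (n + 2) + 1))))))
        (fun n => e * (Real.logb 2 (n + 2) * (((lam n : ℝ) + g n) ^ ((1 : ℝ) / 3) +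
          Real.sqrt (Real.logb 2 (Real.logb 2 (n + 2) + 1))))) ∧
      ∀ x : List Bool,
        ((a : ℚ) / b + 1 / 2 ^ g x.length ≤ M.probAt x true ((x.length + 2) ^ c) 0 M.init →
          x ∈ A) ∧
        (M.probAt x true ((x.length + 2) ^ c) 0 M.init ≤ (a : ℚ) / b - 1 / 2 ^ g x.length →
          x ∉ A) := by
  let C : Cf := ⟨c, k, fun x => lam x.length + g x.length,
    LF.add (Sel.lfx_of_constructible hlam) (Sel.lfx_of_constructible hg)⟩
  have hla0 : ∀ n, (0 : ℝ) ≤ (lam n : ℝ) + g n := fun n => by positivity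
  obtain ⟨A, D, e, hD, hA⟩ := decides_gap (M := M) (c := C) hM (lam := fun x => lam x.length)
    (g := fun x => g x.length) (fun x => rfl) (fun x => (hgk x.length).trans
      (Nat.mul_le_mul_left _ (Sel.log_n_le (M := M) (c := c) x))) hcoin hb
    (la := fun n => (lam n : ℝ) + g n) (fun x => by
      change (((lam x.length + g x.length : ℕ)) : ℝ) ≤ _
      push_cast
      exact le_rfl) hla0
  refine ⟨A, D, 2 * e * 1, decides_clean (S' := spl (fun n => (lam n : ℝ) + g n)) hD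
    (fun n => one_le_spl n (hla0 n)) (C := 1) (fun n => by rw [one_mul]), hA⟩

theorem spl_le (K : ℕ) : ∃ C : ℝ, ∀ n : ℕ,
    spl (fun n => ((K * (Nat.log 2 (n + 2) + 1) : ℕ) : ℝ)) n ≤
      C * Real.logb 2 (n + 2) ^ ((4 : ℝ) / 3) := by
  refine ⟨2 * K + 3, fun n => ?_⟩
  set ℓ : ℝ := Real.logb 2 (n + 2) with hl
  set lm : ℝ := Real.logb 2 (ℓ + 1) with hlm
  have hK : (0 : ℝ) ≤ K := Nat.cast_nonneg K
  have h1 : 1 ≤ ℓ := one_le_logb n
  have h2 : 1 ≤ lm := one_le_logb2 n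
  have h3 : (Nat.log 2 (n + 2) : ℝ) ≤ ℓ := by
    have := natLog_le_logb (n + 2) (by omega)
    push_cast at this
    exact this
  set y : ℝ := ℓ ^ ((1 : ℝ) / 3) with hy
  have hy1 : 1 ≤ y := Real.one_le_rpow h1 (by norm_num)
  have hy3 : y ^ 3 = ℓ := by
    rw [hy, ← Real.rpow_natCast, ← Real.rpow_mul (by linarith)]
    norm_num
  have h4 : lm ≤ 3 * y := by
    have h5 : ℓ + 1 ≤ (y + 1) ^ 3 := by
      rw [← hy3]
      nlinarith [mul_pos (show (0 : ℝ) < y by linarith) (show (0 : ℝ) < y by linarith)]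
    have h6 : lm ≤ Real.logb 2 ((y + 1) ^ 3) :=
      Real.logb_le_logb_of_le (by norm_num) (by linarith) h5
    have h7 : Real.logb 2 ((y + 1) ^ 3) = 3 * Real.logb 2 (y + 1) := by
      rw [Real.logb_pow]
      norm_num
    have h8 : Real.logb 2 (y + 1) ≤ y := by
      rw [Real.logb_le_iff_le_rpow (by norm_num) (by linarith)]
      have h6 := one_add_mul_self_le_rpow_one_add (s := 1) (by norm_num) hy1
      norm_num at h6
      linarith
    linarith
  set la : ℝ := ((K * (Nat.log 2 (n + 2) + 1) : ℕ) : ℝ) with hla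
  have hla0 : 0 ≤ la := Nat.cast_nonneg _
  have e1 : la ≤ (2 * K) * ℓ := by
    rw [hla]
    push_cast
    nlinarith
  have e2 : la ^ ((1 : ℝ) / 3) ≤ (2 * K) * y := by
    refine (Real.rpow_le_rpow hla0 e1 (by norm_num)).trans ?_
    rw [Real.mul_rpow (by positivity) (by linarith)]
    apply mul_le_mul_of_nonneg_right _ (Real.rpow_nonneg (by linarith) _)
    rcases Nat.eq_zero_or_pos K with h0 | h0
    · rw [h0]
      norm_num
    · have h7 : (1 : ℝ) ≤ 2 * K := by
        have : (1 : ℝ) ≤ K := by exact_mod_cast h0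
        linarith
      calc (2 * (K : ℝ)) ^ ((1 : ℝ) / 3) ≤ (2 * (K : ℝ)) ^ (1 : ℝ) :=
            Real.rpow_le_rpow_of_exponent_le h7 (by norm_num)
        _ = 2 * K := Real.rpow_one _
  have e6 : Real.sqrt lm ≤ 3 * y := by
    rw [Real.sqrt_le_left (by linarith)]
    nlinarith
  have e7 : ℓ * y = ℓ ^ ((4 : ℝ) / 3) := by
    rw [hy, ← Real.rpow_one_add' (by linarith) (by norm_num)]
    norm_num
  change ℓ * (la ^ ((1 : ℝ) / 3) + Real.sqrt lm) ≤ (2 * K + 3) * ℓ ^ ((4 : ℝ) / 3)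
  calc ℓ * (la ^ ((1 : ℝ) / 3) + Real.sqrt lm) ≤ ℓ * ((2 * K) * y + 3 * y) :=
        mul_le_mul_of_nonneg_left (add_le_add e2 e6) (by linarith)
    _ = (2 * K + 3) * (ℓ * y) := by ring
    _ = (2 * K + 3) * ℓ ^ ((4 : ℝ) / 3) := by rw [e7]

/-- ALL MACHINES, polynomially small gaps around any threshold. -/
theorem all_coins (k : ℕ) {a b : ℕ} (hb : 0 < b)
    {M : RTM} {c : ℕ} (hM : M.Bounded (fun n => (n + 2) ^ c) (fun n => c * Nat.log 2 (n + 2))) :
    ∃ (A : Set (List Bool)) (D : RTM) (e : ℝ),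
      D.Decides A
        (fun n => (2 : ℝ) ^ (e * Real.logb 2 (n + 2) ^ ((4 : ℝ) / 3)))
        (fun n => e * Real.logb 2 (n + 2) ^ ((4 : ℝ) / 3)) ∧
      ∀ x : List Bool,
        ((a : ℚ) / b + 1 / (x.length + 2) ^ k ≤
          M.probAt x true ((x.length + 2) ^ c) 0 M.init → x ∈ A) ∧
        (M.probAt x true ((x.length + 2) ^ c) 0 M.init ≤ (a : ℚ) / b - 1 / (x.length + 2) ^ k →
          x ∉ A) := by
  have hlog : Sel.LFx (fun x => Nat.log 2 (x.length + 2) + 1) :=
    (LF.log2 (LF.len.add (LF.const 2))).succ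
  let C : Cf := ⟨c, 2 * k, fun x => c * (Nat.log 2 (x.length + 2) + 1) +
    k * (Nat.log 2 (x.length + 2) + 1),
    LF.add (LF.mul (LF.const c) hlog) (LF.mul (LF.const k) hlog)⟩
  have hpow : ∀ (j : ℕ) (x : List Bool),
      (x.length + 2) ^ j ≤ 2 ^ (j * (Nat.log 2 (x.length + 2) + 1)) := by
    intro j x
    rw [mul_comm, pow_mul]
    exact Nat.pow_le_pow_left (Nat.lt_pow_succ_log_self (by norm_num) _).le j
  obtain ⟨A, D, e, hD, hA⟩ := decides_gap (M := M) (c := C) hM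
    (lam := fun x => c * (Nat.log 2 (x.length + 2) + 1))
    (g := fun x => k * (Nat.log 2 (x.length + 2) + 1)) (fun x => rfl) (fun x => by
      have h1 := Sel.log_n_le (M := M) (c := c) x
      have h2 := Sel.five_le_h (M := M) (c := c) x
      change k * (Nat.log 2 (x.length + 2) + 1) ≤ 2 * k * Sel.sh M c x
      calc k * (Nat.log 2 (x.length + 2) + 1) ≤ k * (2 * Sel.sh M c x) :=
            Nat.mul_le_mul_left _ (by omega)
        _ = 2 * k * Sel.sh M c x := by ring) (fun x v =>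
      Sel.probAt_zero_of_lt x v _ _ _ (lt_of_le_of_lt (hpow c x) (Nat.lt_succ_self _))) hb
    (la := fun n => (((c + k) * (Nat.log 2 (n + 2) + 1) : ℕ) : ℝ)) (fun x => by
      change (((c * (Nat.log 2 (x.length + 2) + 1) + k * (Nat.log 2 (x.length + 2) + 1) : ℕ)) : ℝ)
        ≤ _
      rw [← Nat.add_mul]) (fun n => Nat.cast_nonneg _)
  obtain ⟨C', hC'⟩ := spl_le (c + k)
  refine ⟨A, D, 2 * e * C', decides_clean (S' := fun n : ℕ => Real.logb 2 (n + 2) ^ ((4 : ℝ) / 3)) hD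
    (fun n => one_le_spl n (Nat.cast_nonneg _)) hC', fun x => ⟨fun h => ?_, fun h => ?_⟩⟩
  · refine (hA x).1 (le_trans ?_ h)
    have h1 : (1 : ℚ) / 2 ^ (k * (Nat.log 2 (x.length + 2) + 1)) ≤ 1 / (x.length + 2) ^ k := by
      apply one_div_le_one_div_of_le (by positivity)
      exact_mod_cast hpow k x
    linarith
  · refine (hA x).2 (le_trans h ?_)
    have h1 : (1 : ℚ) / 2 ^ (k * (Nat.log 2 (x.length + 2) + 1)) ≤ 1 / (x.length + 2) ^ k := by
      apply one_div_le_one_div_of_le (by positivity)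
      exact_mod_cast hpow k x
    linarith

end Vale.Agent.P313.NW.ZL
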