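import Vale.Agent.P313.NW.H427L.Par6
import Vale.Agent.P313.NW.H136.SemInst

/-!
The semantic hypotheses for the concrete parameters.
-/

namespace Vale.Agent.P313.NW.H427L

open Vale.Agent.P313.NW.BP

variable {M : RTM} {c : Cf}

/-- The numerical hypotheses of `H136.semOK`. -/
theorem semNum (x : List Bool) : H136.SemNum (parx M c x) where
  prime := q_prime x
  r1 := by rw [parx_r]; exact (ppx (M := M) (c := c) x).r_pos
  q16 := sixteen x
  lam := by rw [parx_Lam, parx_q]
  b_le := (hcm x).1
  hcm := (hcm x).2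
  mix := by
    have e : (parx M c x).cmax + (parx M c x).nd + 310 * (parx M c x).r =
        pL (ux M c x) + pcm (ux M c x) + pnd (ux M c x) :=
      off_eq x
    rw [e, parx_q]
    have p := ppx (M := M) (c := c) x
    have h1 := p.Nmax_pow_le
    have h2 := p.r_pos
    generalize hm : pL (ux M c x) + pcm (ux M c x) +
      pnd (ux M c x) = m at *
    have hm1 : 1 ≤ m := by
      rw [← hm]
      unfold pL
      omega
    have h3 : m ^ 8 ≤ qf (ux M c x) := by
      refine le_trans (Nat.pow_le_pow_left (show m ≤ 310 * m by omega) 8) ?_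
      exact le_trans (Nat.le_mul_of_pos_left _ (by positivity)) h1
    calc m ^ 31 ≤ m ^ 32 := Nat.pow_le_pow_right hm1 (by norm_num)
      _ = (m ^ 8) ^ 4 := by rw [← pow_mul]
      _ ≤ qf (ux M c x) ^ 4 := Nat.pow_le_pow_left h3 4
      _ ≤ qf (ux M c x) ^ 8 := Nat.pow_le_pow_right p.q_pos (by norm_num)
  hash := hash_ok x
  n_le := nd_ok x
  rk_le := by rw [parx_rk, parx_r]; exact (ppx (M := M) (c := c) x).rk_le_r
  q6 := by
    rw [parx_q, parx_r, parx_rk]
    have p := ppx (M := M) (c := c) x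
    have h1 := p.diff_ge
    have h2 := p.q2
    rw [← pow_succ'] at h2
    calc qf (ux M c x) ^ 6 ≤ (2 ^ (ca * (ux M c x).R + 1)) ^ 6 := Nat.pow_le_pow_left h2 6
      _ = 2 ^ ((ca * (ux M c x).R + 1) * 6) := by rw [← pow_mul]
      _ ≤ 2 ^ 2 ^ (pr (ux M c x) - (ux M c x).rk) := PP.pow_mono (by omega)

instance neZero_q (x : List Bool) : NeZero (parx M c x).q := ⟨(q_prime x).pos.ne'⟩

/-- The kernels are right. -/
theorem semOKx (x : List Bool) : H974.SemOK (parx M c x).toPar (theSem (parx M c x)) :=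
  H136.semOK (semNum x)

end Vale.Agent.P313.NW.H427L
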