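import Vale.Agent.P313.NW.H644.GoalM
import Vale.Agent.P313.NW.H427L.BaseX
import Vale.Agent.P313.NW.H285.BridgeX

/-!
The goals of the tours for the concrete parameters.
-/

namespace Vale.Agent.P313.NW.ZL

open Finset Vale.Agent.P313.NW.BP Vale.Agent.P313.NW.H126 Vale.Agent.P313.NW.H427L
  Vale.Agent.P313.NW.H644 Vale.Agent.P313.H644

variable {M : RTM} {c : Cf}

/-- The numerical hypotheses of the tours. -/
theorem num4X (x : List Bool) (sd : ℕ) : Num4 (parx M c x) (envx M c x sd) := by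
  have hn := numOK (M := M) (c := c) x
  have hq := (q_prime (M := M) (c := c) x).pos
  have hMb := four_le_Mb (M := M) (c := c) x
  have hB : Mb M c x ^ 12 ≤ (envx M c x sd).B := by rw [envx_B]; exact Mb_pow_le x
  have hM2 : Mb M c x * Mb M c x ≤ Mb M c x ^ 11 := by
    rw [← pow_two]
    exact Nat.pow_le_pow_right (by omega) (by norm_num)
  have hM12 : Mb M c x ^ 12 = Mb M c x ^ 11 * Mb M c x := pow_succ _ _
  have hM11 : Mb M c x ^ 11 * 18 ≤ Mb M c x ^ 12 := by
    rw [hM12]; exact Nat.mul_le_mul_left _ hMb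
  have hM1 : Mb M c x ≤ Mb M c x ^ 11 := Nat.le_self_pow (by norm_num) _
  have hLam : (parx M c x).Lam ≤ Mb M c x := (parLe x).Lam
  have hqM : (parx M c x).q ≤ Mb M c x := (parLe x).q
  have h2r : 2 ^ (parx M c x).r ≤ (parx M c x).q := by
    have h1 : 2 ^ (parx M c x).r ≤ 3 ^ (parx M c x).r := Nat.pow_le_pow_left (by norm_num) _
    have h2 := hn.q3
    omega
  refine ⟨by have := hn.n2; omega, hq, ?_, ?_, ?_, ?_, ?_⟩
  · have h1 := (runOK (M := M) (c := c) x).S4
    have h2 := hn.n2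
    have h3 : 1 ≤ ((parx M c x).S + 1) := by omega
    have h4 : 1 ≤ 2 ^ ((parx M c x).rk * (parx M c x).S) := Nat.one_le_two_pow
    have h5 : 120 * 2 * 1 * 1 ≤ 120 * (parx M c x).n * ((parx M c x).S + 1) *
        2 ^ ((parx M c x).rk * (parx M c x).S) :=
      Nat.mul_le_mul (Nat.mul_le_mul (Nat.mul_le_mul_left _ h2) h3) h4
    omega
  · have h1 := n_lt_Mb (M := M) (c := c) x
    have h2 := qc_le_Mb (M := M) (c := c) x
    have h3 : ((parx M c x).n + 1) * (parx M c x).q ^ (parx M c x).cmax ≤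
        Mb M c x * Mb M c x := Nat.mul_le_mul h1 h2
    omega
  · omega
  · have h1 : (parx M c x).Lam * (parx M c x).Lam ≤ Mb M c x * Mb M c x :=
      Nat.mul_le_mul hLam hLam
    omega
  · rw [(semNum x).lam]
    exact Nat.pow_pos hq

/-- THE GOALS OF THE TOURS. -/
theorem toursX (hM : M.Bounded (fun n => (n + 2) ^ c.c) (fun n => c.c * Nat.log 2 (n + 2)))
    (x : List Bool) {sd : ℕ}
    (h : GoodSd (parx M c x) (theSem (parx M c x)) (theTSem (parx M c x)) (csx M c x) sd) :
    tours.Goals (CX M c x sd) (envx M c x sd) := by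
  have hL1 : (parx M c x).L ≤ (parx M c x).DC * (parx M c x).c0 := by
    rw [mul_comm]
    exact smp_L x
  have hL : (parx M c x).L ≤ (envx M c x sd).B := by
    rw [envx_B]
    exact hL1.trans (DCB x)
  have hdv : ∀ s < (parx M c x).S, H285.Dv (parx M c x) ((CX M c x sd).dt s) := fun s hs =>
    ⟨(dtOkX hM x sd s (le_of_lt hs)).row, (dtOkX hM x sd s (le_of_lt hs)).cb,
      (dtOkX hM x sd s (le_of_lt hs)).cm⟩
  have hq : 0 < (parx M c x).q := (q_prime x).pos
  have hw := envx_w (M := M) (c := c) x sd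
  have hl := envx_L (M := M) (c := c) x sd
  have hok : ∀ s < (parx M c x).S,
      (wk (parx M c x) ((CX M c x sd).dt s)).Ok (envx M c x sd) (parx M c x).r :=
    fun s hs => H285.wkOk (hdv s hs) hq hw hl
  have hb : ∀ s < (parx M c x).S,
      Bridge (parx M c x) (theTSem (parx M c x)) ((CX M c x sd).dt s) :=
    fun s hs => H285.bridge (hdv s hs)
  exact tours_goals (C := CX M c x sd) (hypX hM x h) (num4X x sd) hL hok hb

end Vale.Agent.P313.NW.ZL
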