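import Vale.Agent.P313.NW.H427L.Par0
import Vale.Agent.P313.NW.BP.Phv

/-!
The concrete parameters, as functions of `u`, `q` and `Q`, and their inequalities.
-/

namespace Vale.Agent.P313.NW.H427L

open Vale.Agent.P313.H427 (log_succ_le mul_div_add mul_div_add_le pow_ge pow_le)

/-- `q` is about `2 ^ (ca * R)`. -/
abbrev ca : ℕ := 1000
/-- `r = rk + log R + ce`. -/
abbrev ce : ℕ := 24
/-- `q ^ b` is at least `2 ^ (cb * u.h)`. -/
abbrev cb : ℕ := 200
/-- `Th1 = 2 ^ (cT * u.h)`. -/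
abbrev cT : ℕ := 1000000
/-- There are `2 ^ (cD * u.h)` offsets. -/
abbrev cD : ℕ := 1000
/-- `2 ^ JN` is at least `2 ^ (cJ - 1) * (u.sg + 1)`. -/
abbrev cJ : ℕ := 6
/-- `Q` is about `2 ^ (cQ * u.h)`. -/
abbrev cQ : ℕ := 100000000
/-- `Om = 2 ^ (cO * u.h)`. -/
abbrev cO : ℕ := 10000000

/-- The number of doublings. -/
def pr (u : Un) : ℕ := rr ce u
/-- The exponent of the denominators. -/
def pb (u : Un) : ℕ := cb * u.h / (ca * u.R) + 1
/-- Final value of the counters. -/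
def pK (u : Un) : ℕ := (u.la + 5) / u.rk + 1
/-- Number of stages. -/
def pS (u : Un) : ℕ := pK u + (2 * u.h / (ca * u.R) + 2)
/-- Factors of the scale. -/
def pTh1 (h : ℕ) : ℕ := 2 ^ (cT * h)
/-- Offsets. -/
def pD (h : ℕ) : ℕ := 2 ^ (cD * h)
/-- The products have `2 ^ JF` factors. -/
def pJF (u : Un) : ℕ := Nat.log 2 (pr u) + 1
/-- The Neumann series has `2 ^ JN` terms. -/
def pJN (u : Un) : ℕ := Nat.log 2 u.sg + cJ
/-- Bound for the exponents of the weights. -/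
def pcm (u : Un) : ℕ := pb u + pS u + 1
/-- Digits of a state. -/
def pnd (u : Un) : ℕ := u.h / (ca * u.R) + 1
/-- Cells of the tape. -/
def pL (u : Un) : ℕ := 310 * pr u
/-- Digits of a chunk. -/
def pc0 (u : Un) : ℕ := u.h / (ca * u.R) + 1
/-- Number of chunks. -/
def pDC (u : Un) : ℕ := pL u / pc0 u + 1
/-- Length of the walk. -/
def plw (u : Un) : ℕ := 2 * pDC u
/-- Number of phases of a stage. -/
def pm (_u : Un) : ℕ := 18
/-- Hash functions. -/
def pJH (u : Un) : ℕ := max (pJF u) (pJN u)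

/-- The parameters. -/
def thePar (n : ℕ) (u : Un) (q Q : ℕ) : BP.Par2 where
  n := n
  q := q
  b := pb u
  r := pr u
  rk := u.rk
  K := pK u
  Th1 := pTh1 u.h
  D := pD u.h
  JF := pJF u
  JN := pJN u
  cmax := pcm u
  nd := pnd u
  Lam := q ^ 34
  Q := Q
  DC := pDC u
  c0 := pc0 u
  lw := plw u
  Om := 2 ^ (cO * u.h)
  S := pS u

/-- Basic facts on the parameters. -/
structure PP (u : Un) (q Q : ℕ) : Prop extends Cb u where
  qp : q.Prime
  q1 : 2 ^ (ca * u.R) ≤ q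
  q2 : q ≤ 2 * 2 ^ (ca * u.R)
  Qp : Q.Prime
  Q1 : 2 ^ (cQ * u.h) ≤ Q
  Q2 : Q ≤ 2 * 2 ^ (cQ * u.h)

namespace PP

variable {u : Un} {q Q : ℕ}

theorem r_pos (p : PP u q Q) : 1 ≤ pr u := rr_pos _ p.toCb

theorem rk_le_r (_p : PP u q Q) : u.rk ≤ pr u := rk_le_rr _ _

theorem r_le (p : PP u q Q) : pr u ≤ 26 * u.R := rr_le p.toCb

theorem r_le_h (p : PP u q Q) : pr u ≤ 26 * u.h := by
  have h1 := p.h5
  have h2 := p.rk_le
  have h3 := p.R_le
  have h4 : Nat.log 2 u.R < u.R := Nat.log_lt_self 2 (by have := p.R_pos; omega)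
  unfold pr rr
  simp only [ce]
  omega

theorem ar_pos (p : PP u q Q) : 1 ≤ ca * u.R := Nat.mul_pos (by norm_num) p.R_pos

theorem q_pos (p : PP u q Q) : 1 ≤ q := p.qp.one_lt.le

theorem Q_pos (p : PP u q Q) : 1 ≤ Q := p.Qp.one_lt.le

theorem q_ge_16r (p : PP u q Q) : 2 ^ (16 * pr u) ≤ q :=
  le_trans (Nat.pow_le_pow_right (by norm_num) (by
    have := p.r_le
    simp only [ca]
    omega)) p.q1

/-- The difference `r - rk`. -/
theorem diff_ge (_p : PP u q Q) : 64 * (ca * u.R + 1) ≤ 2 ^ (pr u - u.rk) :=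
  two_pow_diff' _ (by norm_num) (by norm_num)

theorem pow_b_ge (p : PP u q Q) : 2 ^ (cb * u.h) ≤ q ^ pb u :=
  pow_ge (by norm_num) p.R_pos p.q1 le_rfl

theorem ar_b_le (p : PP u q Q) : ca * u.R * pb u ≤ 2200 * u.h := by
  have h1 := mul_div_add_le (cb * u.h) (ca * u.R) 1
  have h2 := p.R_le_two
  unfold pb
  simp only [ca, cb] at *
  omega

theorem pow_b_le (p : PP u q Q) : q ^ pb u ≤ 2 ^ (2 * (2200 * u.h)) :=
  pow_le (by norm_num) p.R_pos p.q2 p.ar_b_le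

theorem rk_K_ge (p : PP u q Q) : u.la + 5 ≤ u.rk * pK u := mul_div_add _ _ p.rk_pos

theorem rk_K_le (p : PP u q Q) : u.rk * pK u ≤ 9 * u.h := by
  have h1 := mul_div_add_le (u.la + 5) u.rk 1
  have h2 := p.rk_le
  have h3 := p.lah
  have h5 := p.h5
  unfold pK
  omega

theorem K_le_S (u : Un) : pK u ≤ pS u := Nat.le_add_right _ _

theorem rk_S_le (p : PP u q Q) : u.rk * pS u ≤ 13 * u.h := by
  have h1 := p.rk_K_le
  have h2 := mul_div_add_le (2 * u.h) (ca * u.R) 2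
  have h3 : u.rk * (2 * u.h / (ca * u.R)) ≤ 2 * u.h := by
    calc u.rk * (2 * u.h / (ca * u.R)) ≤ (ca * u.R) * (2 * u.h / (ca * u.R)) := by
          apply Nat.mul_le_mul_right
          have := p.rk_le_R
          simp only [ca]
          omega
      _ ≤ 2 * u.h := Nat.mul_div_le _ _
  have h4 := p.rk_le
  have h5 := p.h5
  have h6 : u.rk * pK u ≤ u.la + 5 + u.rk := by
    have := mul_div_add_le (u.la + 5) u.rk 1
    unfold pK
    omega
  have h7 := p.lah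
  unfold pS
  rw [mul_add, mul_add]
  omega

theorem K_le_sg (p : PP u q Q) : pK u ≤ u.sg + 6 := by
  have h1 := p.la_lt
  have h2 := p.rk_pos
  have h3 : (u.la + 5) / u.rk ≤ u.sg + 5 := by
    apply Nat.div_le_of_le_mul
    nlinarith
  unfold pK
  omega

/-- The number of stages. -/
theorem S_le_sg (p : PP u q Q) : pS u ≤ 10 * u.sg := by
  have h1 := p.K_le_sg
  have h2 := p.h_lt
  have h3 := p.s1
  have h4 : 2 * u.h / (ca * u.R) ≤ u.sg := by
    apply Nat.div_le_of_le_mul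
    simp only [ca]
    nlinarith
  unfold pS
  omega

theorem R_S_le (p : PP u q Q) : u.R * pS u ≤ 20 * u.h := by
  have h1 := p.S_le_sg
  have h2 : u.sg * (u.h / u.sg) ≤ u.h := Nat.mul_div_le _ _
  have h3 := p.sg_le
  calc u.R * pS u ≤ u.R * (10 * u.sg) := Nat.mul_le_mul_left _ h1
    _ = 10 * (u.sg * (u.h / u.sg) + u.sg) := by unfold Un.R; ring
    _ ≤ 20 * u.h := by omega

/-- The weights are at most polynomial. -/
theorem ar_S_le (p : PP u q Q) : ca * u.R * pS u ≤ 20000 * u.h := by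
  have h1 := p.R_S_le
  calc ca * u.R * pS u = 1000 * (u.R * pS u) := by simp only [ca]; ring
    _ ≤ 1000 * (20 * u.h) := Nat.mul_le_mul_left _ h1
    _ = 20000 * u.h := by ring

theorem S_le (p : PP u q Q) : pS u ≤ 13 * u.h := by
  have h1 := p.rk_S_le
  have h2 := p.rk_pos
  nlinarith

theorem K_le (p : PP u q Q) : pK u ≤ 13 * u.h := (K_le_S u).trans p.S_le

theorem b_le (p : PP u q Q) : pb u ≤ 27 * u.h := by
  have h1 := p.ar_b_le
  have h2 := p.R_pos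
  have h3 : 1000 * pb u ≤ ca * u.R * pb u := by
    apply Nat.mul_le_mul_right
    simp only [ca]
    omega
  omega

theorem cm_le (p : PP u q Q) : pcm u ≤ 41 * u.h := by
  have h1 := p.b_le
  have h2 := p.S_le
  have h3 := p.h1
  unfold pcm
  omega

theorem nd_le (p : PP u q Q) : pnd u ≤ 2 * u.h := by
  have h1 : u.h / (ca * u.R) ≤ u.h := Nat.div_le_self _ _
  have h3 := p.h1
  unfold pnd
  omega

/-- All coordinates. -/
theorem Nmax_le (p : PP u q Q) : pL u + pcm u + pnd u ≤ 8110 * u.h := by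
  have h1 := p.cm_le
  have h2 := p.nd_le
  have h3 := p.r_le_h
  unfold pL
  omega

/-- Polynomials in `u.h` are small compared with `q`. -/
theorem poly_le (p : PP u q Q) {C c : ℕ} (hC : Nat.log 2 C + 1 + 2 * c + 416 ≤ ca) :
    2 ^ (16 * pr u) * (C * u.h ^ c) ≤ q := by
  have h1 : C ≤ 2 ^ (Nat.log 2 C + 1) := (Nat.lt_pow_succ_log_self (by norm_num) _).le
  have h2 : u.h ^ c ≤ 2 ^ (2 * c * u.R) := by
    calc u.h ^ c ≤ (2 ^ (2 * u.R)) ^ c := Nat.pow_le_pow_left p.le_two_pow c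
      _ = 2 ^ (2 * c * u.R) := by rw [← pow_mul]; ring_nf
  have h3 := p.R_pos
  have h4 := p.r_le
  refine le_trans ?_ p.q1
  calc 2 ^ (16 * pr u) * (C * u.h ^ c)
      ≤ 2 ^ (16 * pr u) * (2 ^ (Nat.log 2 C + 1) * 2 ^ (2 * c * u.R)) := by gcongr
    _ = 2 ^ (16 * pr u + ((Nat.log 2 C + 1) + 2 * c * u.R)) := by
        rw [pow_add 2 (16 * pr u), pow_add 2 (Nat.log 2 C + 1)]
    _ ≤ 2 ^ (ca * u.R) := by
        apply Nat.pow_le_pow_right (by norm_num)
        have h5 : (Nat.log 2 C + 1) ≤ (Nat.log 2 C + 1) * u.R := Nat.le_mul_of_pos_right _ (by omega)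
        calc 16 * pr u + ((Nat.log 2 C + 1) + 2 * c * u.R)
            ≤ 416 * u.R + ((Nat.log 2 C + 1) * u.R + 2 * c * u.R) := by omega
          _ = (Nat.log 2 C + 1 + 2 * c + 416) * u.R := by ring
          _ ≤ ca * u.R := Nat.mul_le_mul_right _ hC

theorem Nmax_pow_le (p : PP u q Q) :
    2 ^ (16 * pr u) * (310 * (pL u + pcm u + pnd u)) ^ 8 ≤ q := by
  have h1 := p.Nmax_le
  refine le_trans ?_ (p.poly_le (C := 2514100 ^ 8) (c := 8) ?_)
  · gcongr
    calc (310 * (pL u + pcm u + pnd u)) ^ 8 ≤ (2514100 * u.h) ^ 8 := by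
          apply Nat.pow_le_pow_left; omega
      _ = 2514100 ^ 8 * u.h ^ 8 := by rw [mul_pow]
  · have h2 : Nat.log 2 (2514100 ^ 8) < 176 := by
      apply Nat.log_lt_of_lt_pow (by norm_num)
      norm_num
    simp only [ca]
    omega

theorem n_le_nd (p : PP u q Q) : 2 ^ u.h ≤ q ^ pnd u := pow_ge (by norm_num) p.R_pos p.q1 le_rfl

theorem big_S (p : PP u q Q) : 2 * 2 ^ u.h < q ^ (pS u + 1 - pK u) := by
  have h1 : pS u + 1 - pK u = 2 * u.h / (ca * u.R) + 3 := by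
    unfold pS
    generalize 2 * u.h / (ca * u.R) = t
    omega
  rw [h1]
  have h2 : 2 ^ (2 * u.h) ≤ q ^ (2 * u.h / (ca * u.R) + 1) :=
    pow_ge (by norm_num) p.R_pos p.q1 le_rfl
  have h3 : 2 * 2 ^ u.h ≤ 2 ^ (2 * u.h) := by
    rw [← pow_succ']
    exact Nat.pow_le_pow_right (by norm_num) (by have := p.h1; omega)
  have h4 := p.qp.one_lt
  calc 2 * 2 ^ u.h ≤ q ^ (2 * u.h / (ca * u.R) + 1) := h3.trans h2
    _ < q ^ (2 * u.h / (ca * u.R) + 3) := Nat.pow_lt_pow_right h4 (by omega)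

/-- `2 ^ JF` is more than `r`. -/
theorem JF_gt (u : Un) : pr u < 2 ^ pJF u := Nat.lt_pow_succ_log_self (by norm_num) _

theorem JN_ge (u : Un) : 2 ^ (cJ - 1) * (u.sg + 1) ≤ 2 ^ pJN u := by
  have h1 : u.sg + 1 ≤ 2 ^ (Nat.log 2 u.sg + 1) := Nat.lt_pow_succ_log_self (by norm_num) _
  have h2 : pJN u = (cJ - 1) + (Nat.log 2 u.sg + 1) := by unfold pJN; simp only [cJ]; omega
  rw [h2, pow_add]
  exact Nat.mul_le_mul_left _ h1

theorem m_le (_p : PP u q Q) : pm u ≤ 18 := le_rfl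

/-- The number of hash functions. -/
theorem JH_le (p : PP u q Q) : pJH u ≤ 9 * u.sg := by
  have h1 := p.s1
  have hJN : pJN u ≤ 9 * u.sg := by
    have h2 := log_succ_le h1
    unfold pJN
    simp only [cJ]
    omega
  have hJF : pJF u ≤ 9 * u.sg := by
    have h2 : pr u ≤ 2 ^ (3 * u.sg + 5) := by
      have h3 : u.la / u.sg ≤ u.la := Nat.div_le_self _ _
      have h4 : Nat.log 2 u.R ≤ u.l1 := by
        have h6 := Nat.log_mono_right (b := 2) p.R_le_two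
        have h7 : Nat.log 2 (2 * u.h) = Nat.log 2 u.h + 1 := by
          rw [mul_comm]
          exact Nat.log_mul_base (by norm_num) (by have := p.h1; omega)
        unfold Un.l1
        omega
      have h5 := p.lt
      have h6 := p.lt2
      have h7 : u.sg + 1 ≤ 2 ^ u.sg := Nat.lt_two_pow_self
      have h8 : (u.sg + 1) ^ 3 ≤ 2 ^ (3 * u.sg) := by
        calc (u.sg + 1) ^ 3 ≤ (2 ^ u.sg) ^ 3 := Nat.pow_le_pow_left h7 3
          _ = 2 ^ (3 * u.sg) := by rw [← pow_mul]; ring_nf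
      have h9 : (u.sg + 1) ^ 2 ≤ (u.sg + 1) ^ 3 := Nat.pow_le_pow_right (by omega) (by norm_num)
      have h10 : 8 ≤ 2 ^ (3 * u.sg) := by
        calc 8 = 2 ^ (3 * 1) := by norm_num
          _ ≤ 2 ^ (3 * u.sg) := Nat.pow_le_pow_right (by norm_num) (by omega)
      have h11 : 2 ^ (3 * u.sg + 5) = 32 * 2 ^ (3 * u.sg) := by rw [pow_add]; ring
      unfold pr rr Un.rk
      simp only [ce]
      omega
    have h3 := Nat.log_mono_right (b := 2) h2
    rw [Nat.log_pow (by norm_num)] at h3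
    unfold pJF
    omega
  exact max_le hJF hJN

/-- The levels times `h`. -/
theorem levels_le (p : PP u q Q) : pS u * pm u * u.h ≤ 180 * u.sp :=
  p.toCb.stages_le (C := 10) (C' := 18) p.S_le_sg p.m_le

theorem JH_h_le (p : PP u q Q) : pJH u * u.h ≤ 9 * u.sp := by
  calc pJH u * u.h ≤ (9 * u.sg) * u.h := Nat.mul_le_mul_right _ p.JH_le
    _ = 9 * u.sp := by unfold Un.sp; ring

theorem Sh_le (p : PP u q Q) : pS u * u.h ≤ 10 * u.sp := by
  have h1 := p.S_le_sg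
  have h2 := p.toCb.hsg_le_sp
  calc pS u * u.h ≤ (10 * u.sg) * u.h := Nat.mul_le_mul_right _ h1
    _ = 10 * (u.h * u.sg) := by ring
    _ ≤ 10 * u.sp := Nat.mul_le_mul_left _ h2

theorem r_R_le (p : PP u q Q) : pr u * u.R ≤ 69 * u.sp := rr_R_le p.toCb

theorem ar_L_le (p : PP u q Q) : ca * u.R * pL u ≤ 21390000 * u.sp := by
  calc ca * u.R * pL u = 310000 * (pr u * u.R) := by simp only [ca, pL]; ring
    _ ≤ 310000 * (69 * u.sp) := Nat.mul_le_mul_left _ p.r_R_le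
    _ = 21390000 * u.sp := by ring

/-- The contents of the tape. -/
theorem tape_le (p : PP u q Q) : q ^ pL u ≤ 2 ^ (200000000 * u.sp) := by
  refine (pow_le (by norm_num) p.R_pos p.q2 p.ar_L_le).trans ?_
  apply Nat.pow_le_pow_right (by norm_num)
  omega

theorem c0_pos (u : Un) : 1 ≤ pc0 u := Nat.le_add_left _ _

theorem L_le (u : Un) : pL u ≤ pc0 u * pDC u := mul_div_add _ _ (c0_pos u)

theorem pow_c0_le (p : PP u q Q) : q ^ pc0 u ≤ 2 ^ (2 * (10401 * u.h)) := by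
  refine pow_le (by norm_num) p.R_pos p.q2 ?_
  have h1 := mul_div_add_le u.h (ca * u.R) 1
  have h2 := p.R_le_two
  unfold pc0
  simp only [ca] at *
  omega

theorem pow_c0_ge (p : PP u q Q) : 2 ^ u.h ≤ q ^ pc0 u :=
  pow_ge (by norm_num) p.R_pos p.q1 le_rfl

theorem DC_h_le (p : PP u q Q) : pDC u * u.h ≤ 83834404 * u.sp := by
  have h1 : u.h ≤ (ca * u.R) * pc0 u := mul_div_add _ _ p.ar_pos
  have h2 : pDC u * pc0 u ≤ pL u + pc0 u := by
    have := mul_div_add_le (pL u) (pc0 u) 1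
    rw [mul_comm]
    unfold pDC
    omega
  have h3 : (ca * u.R) * pc0 u ≤ u.h + ca * u.R := by
    have := mul_div_add_le u.h (ca * u.R) 1
    unfold pc0
    omega
  have h4 := p.toCb.h_le_sp
  have h5 := p.R_le_two
  have h7 : ca * u.R ≤ 2000 * u.sp := by
    simp only [ca]
    omega
  have h8 := p.ar_L_le
  calc pDC u * u.h ≤ pDC u * ((ca * u.R) * pc0 u) := Nat.mul_le_mul_left _ h1
    _ = (ca * u.R) * (pDC u * pc0 u) := by ring
    _ ≤ (ca * u.R) * (pL u + pc0 u) := Nat.mul_le_mul_left _ h2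
    _ = (ca * u.R) * pL u + (ca * u.R) * pc0 u := by ring
    _ ≤ 21390000 * u.sp + (u.h + ca * u.R) := by omega
    _ ≤ _ := by omega

/-- The number of seeds. -/
theorem seeds_le (p : PP u q Q) :
    Q ^ (2 * pDC u + 2 * plw u + 2 * pJH u) ≤ 2 ^ ((cQ + 1) * 503006442 * u.sp) := by
  have h1 : Q ≤ 2 ^ ((cQ + 1) * u.h) := by
    refine p.Q2.trans ?_
    rw [← pow_succ']
    apply Nat.pow_le_pow_right (by norm_num)
    have := p.h1
    simp only [cQ]
    omega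
  have h2 : (2 * pDC u + 2 * plw u + 2 * pJH u) * u.h ≤ 503006442 * u.sp := by
    have h3 := p.DC_h_le
    have h4 := p.JH_h_le
    calc (2 * pDC u + 2 * plw u + 2 * pJH u) * u.h = 6 * (pDC u * u.h) + 2 * (pJH u * u.h) := by
          unfold plw; ring
      _ ≤ 6 * (83834404 * u.sp) + 2 * (9 * u.sp) := by omega
      _ = 503006442 * u.sp := by ring
  calc Q ^ (2 * pDC u + 2 * plw u + 2 * pJH u)
      ≤ (2 ^ ((cQ + 1) * u.h)) ^ (2 * pDC u + 2 * plw u + 2 * pJH u) := Nat.pow_le_pow_left h1 _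
    _ = 2 ^ ((cQ + 1) * ((2 * pDC u + 2 * plw u + 2 * pJH u) * u.h)) := by
        rw [← pow_mul]; ring_nf
    _ ≤ 2 ^ ((cQ + 1) * (503006442 * u.sp)) := by
        apply Nat.pow_le_pow_right (by norm_num)
        exact Nat.mul_le_mul_left _ h2
    _ = _ := by rw [mul_assoc]

theorem L_eq (n : ℕ) (u : Un) (q Q : ℕ) : (thePar n u q Q).L = pL u := rfl

theorem m_eq (n : ℕ) (u : Un) (q Q : ℕ) : (thePar n u q Q).m = pm u := rfl

theorem JH_eq (n : ℕ) (u : Un) (q Q : ℕ) : (thePar n u q Q).JH = pJH u := rfl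

theorem nw_eq (n : ℕ) (u : Un) (q Q : ℕ) :
    (thePar n u q Q).nw = 2 * pDC u + 2 * plw u + 2 * pJH u := rfl

/-! ### Hypotheses of the composition of stages -/

theorem JF_le (p : PP u q Q) : 2 ^ pJF u ≤ 2 * pr u := by
  have h1 := Nat.pow_log_le_self 2 (show pr u ≠ 0 by have := p.r_pos; omega)
  unfold pJF
  rw [pow_succ]
  omega

/-- The Neumann series has few terms. -/
theorem JN_le (p : PP u q Q) : 2 ^ pJN u ≤ 64 * u.sg := by
  have h1 := Nat.pow_log_le_self 2 (show u.sg ≠ 0 by have := p.s1; omega)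
  unfold pJN
  simp only [cJ]
  rw [pow_add]
  omega

theorem sg_R_le (p : PP u q Q) : u.sg * u.R ≤ 2 * u.h := by
  have h1 := p.sg_le
  have h2 : u.sg * (u.h / u.sg) ≤ u.h := Nat.mul_div_le _ _
  unfold Un.R
  rw [mul_add]
  omega

/-- The scale of the estimates of the products. -/
theorem four_pow_le (p : PP u q Q) : 4 ^ 2 ^ pJF u ≤ 2 ^ (104 * u.h) := by
  have h1 := p.JF_le
  have h2 := p.r_le_h
  rw [show (4 : ℕ) = 2 ^ 2 by norm_num, ← pow_mul]
  exact Nat.pow_le_pow_right (by norm_num) (by omega)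

/-- The scale of the estimates of the Neumann series. -/
theorem RX_pow_le (p : PP u q Q) : (2 ^ (pr u + 4)) ^ 2 ^ pJN u ≤ 2 ^ (8000 * u.h) := by
  have h1 := p.JN_le
  have h2 := p.r_le
  have h3 := p.R_pos
  have h4 := p.sg_R_le
  rw [← pow_mul]
  apply Nat.pow_le_pow_right (by norm_num)
  calc (pr u + 4) * 2 ^ pJN u ≤ (30 * u.R) * (64 * u.sg) := Nat.mul_le_mul (by omega) h1
    _ = 1920 * (u.sg * u.R) := by ring
    _ ≤ 8000 * u.h := by omega

theorem three_r_le (p : PP u q Q) : 2 * (3 ^ pr u + 2) ≤ q := by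
  have h1 : 3 ^ pr u ≤ 2 ^ (2 * pr u) := by
    rw [pow_mul]; exact Nat.pow_le_pow_left (by norm_num) _
  have h2 := p.r_pos
  have h3 : 2 ^ (2 * pr u) * 8 ≤ 2 ^ (16 * pr u) := by
    rw [show (8 : ℕ) = 2 ^ 3 by norm_num, ← pow_add]
    exact Nat.pow_le_pow_right (by norm_num) (by omega)
  have h4 : 2 ≤ 2 ^ (2 * pr u) := by
    calc 2 = 2 ^ 1 := by norm_num
      _ ≤ _ := Nat.pow_le_pow_right (by norm_num) (by omega)
  have h5 := p.q_ge_16r
  omega

theorem q_ge_64 (p : PP u q Q) : 2 ^ 16 ≤ q :=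
  le_trans (Nat.pow_le_pow_right (by norm_num) (by have := p.r_pos; omega)) p.q_ge_16r

theorem Th_eq (n : ℕ) : (thePar n u q Q).Th = 2 ^ u.rk * q ^ pb u * 2 ^ (cT * u.h) := rfl

theorem pow_q_le (p : PP u q Q) (v : ℕ) : q ^ v ≤ 2 ^ (4000 * v * u.h) := by
  have h1 : ca * u.R * v ≤ 2000 * v * u.h := by
    have := p.R_le_two
    calc ca * u.R * v ≤ ca * (2 * u.h) * v := by gcongr
      _ = 2000 * v * u.h := by simp only [ca]; ring
  refine (pow_le (by norm_num) p.R_pos p.q2 h1).trans (le_of_eq ?_)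
  ring_nf

theorem q_seven_le (p : PP u q Q) (n : ℕ) : 2 * q ^ 7 ≤ (thePar n u q Q).Th := by
  have h1 := p.pow_q_le 7
  have h2 : 2 * q ^ 7 ≤ 2 ^ (cT * u.h) := by
    calc 2 * q ^ 7 ≤ 2 * 2 ^ (4000 * 7 * u.h) := Nat.mul_le_mul_left _ h1
      _ = 2 ^ (4000 * 7 * u.h + 1) := by rw [← pow_succ']
      _ ≤ 2 ^ (cT * u.h) := by
        apply Nat.pow_le_pow_right (by norm_num)
        have := p.h1
        simp only [cT]
        omega
  rw [Th_eq]
  have h3 : 1 ≤ 2 ^ u.rk * q ^ pb u := Nat.mul_pos (by positivity) (pow_pos p.q_pos _)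
  calc 2 * q ^ 7 ≤ 1 * 2 ^ (cT * u.h) := by rw [one_mul]; exact h2
    _ ≤ _ := Nat.mul_le_mul_right _ h3

theorem Th1_ge (p : PP u q Q) {n : ℕ} (hn : n ≤ 2 ^ u.h) :
    400 * n ^ 5 * pr u ^ 2 * 9 ^ pr u ≤ pTh1 u.h := by
  have h1 : pr u ≤ 2 ^ pr u := Nat.lt_two_pow_self.le
  have h2 := p.r_le_h
  have h3 := p.h1
  calc 400 * n ^ 5 * pr u ^ 2 * 9 ^ pr u
      ≤ 2 ^ 9 * (2 ^ u.h) ^ 5 * (2 ^ pr u) ^ 2 * (2 ^ 4) ^ pr u := by gcongr <;> norm_num
    _ = 2 ^ (9 + u.h * 5 + pr u * 2 + 4 * pr u) := by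
        rw [pow_add, pow_add, pow_add, pow_mul, pow_mul, pow_mul]
    _ ≤ 2 ^ (cT * u.h) := by
        apply Nat.pow_le_pow_right (by norm_num)
        simp only [cT]
        omega

/-- The contraction factor of the first preconditioner. -/
theorem JN_big (p : PP u q Q) {n : ℕ} (hn : n ≤ 2 ^ u.h) :
    ∃ X : ℕ, 8 ≤ X ∧ 8 * X ≤ q ∧ X * (400 * n ^ 5 * pr u ^ 2 * 9 ^ pr u) ≤ pTh1 u.h ∧
      4 * n * q ^ pb u ≤ X ^ 2 ^ pJN u := by
  have h1 := JN_ge u
  have h2 := p.pow_b_le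
  have h3 := p.R_pos
  have h4 := p.h_lt
  have h5 := p.h1
  refine ⟨2 ^ (500 * u.R), ?_, ?_, ?_, ?_⟩
  · calc 8 = 2 ^ 3 := by norm_num
      _ ≤ 2 ^ (500 * u.R) := Nat.pow_le_pow_right (by norm_num) (by omega)
  · refine le_trans ?_ p.q1
    calc 8 * 2 ^ (500 * u.R) = 2 ^ (500 * u.R + 3) := by rw [pow_add]; ring
      _ ≤ 2 ^ (ca * u.R) := Nat.pow_le_pow_right (by norm_num) (by simp only [ca]; omega)
  · have h6 : pr u ≤ 2 ^ pr u := Nat.lt_two_pow_self.le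
    have h7 := p.r_le_h
    have h8 := p.R_le_two
    calc 2 ^ (500 * u.R) * (400 * n ^ 5 * pr u ^ 2 * 9 ^ pr u)
        ≤ 2 ^ (500 * u.R) * (2 ^ 9 * (2 ^ u.h) ^ 5 * (2 ^ pr u) ^ 2 * (2 ^ 4) ^ pr u) := by
          gcongr <;> norm_num
      _ = 2 ^ (500 * u.R + (9 + u.h * 5 + pr u * 2 + 4 * pr u)) := by
          rw [pow_add, pow_add, pow_add, pow_add, pow_mul, pow_mul, pow_mul, pow_mul]
      _ ≤ 2 ^ (cT * u.h) := by
          apply Nat.pow_le_pow_right (by norm_num)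
          simp only [cT]
          omega
  · calc 4 * n * q ^ pb u ≤ 2 ^ 2 * 2 ^ u.h * 2 ^ (2 * (2200 * u.h)) := by
          gcongr
          norm_num
      _ = 2 ^ (2 + u.h + 2 * (2200 * u.h)) := by rw [pow_add, pow_add]
      _ ≤ 2 ^ (500 * u.R * 2 ^ pJN u) := by
          apply Nat.pow_le_pow_right (by norm_num)
          have h6 : 500 * u.R * (2 ^ (cJ - 1) * (u.sg + 1)) ≤ 500 * u.R * 2 ^ pJN u :=
            Nat.mul_le_mul_left _ h1
          have h7 : 500 * u.R * (2 ^ (cJ - 1) * (u.sg + 1)) =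
              16000 * (u.sg * u.R) + 16000 * u.R := by
            simp only [cJ]
            ring
          omega
      _ = (2 ^ (500 * u.R)) ^ 2 ^ pJN u := by rw [pow_mul]

theorem S_sq (p : PP u q Q) : 2 * pS u ≤ q ^ 2 := by
  have h1 := p.S_le
  have h2 := p.poly_le (C := 26) (c := 1) (by
    have : Nat.log 2 26 < 5 := Nat.log_lt_of_lt_pow (by norm_num) (by norm_num)
    simp only [ca]; omega)
  have h3 : 1 ≤ 2 ^ (16 * pr u) := Nat.one_le_two_pow
  have h4 := p.q_pos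
  calc 2 * pS u ≤ 26 * u.h ^ 1 := by rw [pow_one]; omega
    _ ≤ 2 ^ (16 * pr u) * (26 * u.h ^ 1) := Nat.le_mul_of_pos_left _ h3
    _ ≤ q := h2
    _ ≤ q ^ 2 := Nat.le_self_pow (by norm_num) q

theorem n_big (p : PP u q Q) {n : ℕ} (hn : n ≤ 2 ^ u.h) :
    2 * n < q ^ (pS u + 1 - pK u) :=
  lt_of_le_of_lt (Nat.mul_le_mul_left _ hn) p.big_S

theorem b_bigE (p : PP u q Q) {n E : ℕ} (hn : n ≤ 2 ^ u.h) (hE : E ≤ 2 ^ (u.h + 5)) :
    6 * E * n * (pS u + 1) * 2 ^ (u.rk * pS u) ≤ q ^ pb u := by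
  refine le_trans ?_ p.pow_b_ge
  have h1 := p.S_le
  have h2 := p.rk_S_le
  have h3 := p.h1
  have h4 : u.h < 2 ^ u.h := Nat.lt_two_pow_self
  have h5 : pS u + 1 ≤ 2 ^ 4 * 2 ^ u.h := by omega
  calc 6 * E * n * (pS u + 1) * 2 ^ (u.rk * pS u)
      ≤ 2 ^ 3 * 2 ^ (u.h + 5) * 2 ^ u.h * (2 ^ 4 * 2 ^ u.h) * 2 ^ (13 * u.h) := by
        gcongr <;> norm_num
    _ = 2 ^ (12 + 16 * u.h) := by ring
    _ ≤ 2 ^ (cb * u.h) := by
        apply Nat.pow_le_pow_right (by norm_num)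
        simp only [cb]
        omega

theorem b_big (p : PP u q Q) {n : ℕ} (hn : n ≤ 2 ^ u.h) :
    120 * n * (pS u + 1) * 2 ^ (u.rk * pS u) ≤ q ^ pb u := by
  have h1 := p.b_bigE (n := n) (E := 20) hn (by
    calc 20 ≤ 2 ^ 5 := by norm_num
      _ ≤ 2 ^ (u.h + 5) := Nat.pow_le_pow_right (by norm_num) (by omega))
  exact h1

theorem T_small (p : PP u q Q) {T : ℕ} (hT : T ≤ 2 ^ (u.la + 5)) : T ≤ 2 ^ (u.rk * pK u) :=
  hT.trans (Nat.pow_le_pow_right (by norm_num) p.rk_K_ge)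

theorem D_pos (h : ℕ) : 1 ≤ pD h := Nat.one_le_two_pow

end PP

end Vale.Agent.P313.NW.H427L
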