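import Vale.Agent.P313.BundleTS
import Vale.Agent.P313.NW.H427.Stat
import Vale.Agent.P313.NW.H427L.Par2

/-!
The parameters as functions of the input, computable in logarithmic space.
-/

namespace Vale.Agent.P313.NW.H427L

open Sel (LFx)
open Vale.Agent.P313.NW.H427 (statN)

/-- Integer cube root of `la` or square root of `log h`, at least one. -/
noncomputable def sgf (h la : ℕ) : ℕ := max (max 1 (rt 1 3 la)) (rt 1 2 (Nat.log 2 h + 1))

/-- The prime `q`. -/
noncomputable def qf (u : Un) : ℕ := nxp (2 ^ (ca * u.R))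

/-- The prime `Q`. -/
noncomputable def Qf (h : ℕ) : ℕ := nxp (2 ^ (cQ * h))

theorem cb_sgf {h la : ℕ} (h5 : 5 ≤ h) (hla : la ≤ h) : Cb ⟨h, la, sgf h la⟩ := by
  obtain ⟨h2, h3⟩ := rt_spec (a := 1) (b := 3) (L := la) (by norm_num)
  obtain ⟨g2, g3⟩ := rt_spec (a := 1) (b := 2) (L := Nat.log 2 h + 1) (by norm_num)
  rw [pow_one] at h2 h3 g2 g3
  set A := rt 1 3 la with hA
  set B := rt 1 2 (Nat.log 2 h + 1) with hB
  have e1 : sgf h la = max (max 1 A) B := rfl
  have hAs : A ≤ sgf h la := by rw [e1]; exact (le_max_right _ _).trans (le_max_left _ _)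
  have hBs : B ≤ sgf h la := by rw [e1]; exact le_max_right _ _
  refine ⟨h5, hla, (le_max_left _ _).trans (le_max_left _ _), ?_, ?_, ?_⟩
  · change sgf h la ^ 3 ≤ max la 1 ∨ sgf h la ^ 2 ≤ Nat.log 2 h + 1
    rw [e1]
    rcases le_total B (max 1 A) with h8 | h8
    · left
      rw [max_eq_left h8]
      rcases le_total A 1 with h7 | h7
      · rw [max_eq_left h7, one_pow]
        exact le_max_right _ _
      · rw [max_eq_right h7]
        exact h2.trans (le_max_left _ _)
    · right
      rw [max_eq_right h8]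
      exact g2
  · change la < (sgf h la + 1) ^ 3
    exact h3.trans_le (Nat.pow_le_pow_left (Nat.succ_le_succ hAs) 3)
  · change Nat.log 2 h + 1 < (sgf h la + 1) ^ 2
    exact g3.trans_le (Nat.pow_le_pow_left (Nat.succ_le_succ hBs) 2)

/-- The basic facts hold. -/
theorem pp_all {u : Un} (hu : Cb u) : PP u (qf u) (Qf u.h) := by
  have hq := nxp_spec (m := 2 ^ (ca * u.R)) Nat.one_le_two_pow
  have hQ := nxp_spec (m := 2 ^ (cQ * u.h)) Nat.one_le_two_pow
  exact { hu with
    qp := hq.1
    q1 := hq.2.1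
    q2 := hq.2.2
    Qp := hQ.1
    Q1 := hQ.2.1
    Q2 := hQ.2.2 }

/-- The constants: exponent `c` of the bounds of the machine, `k` for the gap, and the number `la`
of bits of the number of coins and of the gap. -/
structure Cf where
  /-- exponent -/
  c : ℕ
  /-- gap -/
  k : ℕ
  /-- coins -/
  la : List Bool → ℕ
  /-- computable -/
  lf : LFx la

section mach

variable (M : RTM) (c : Cf)

/-- The number of bits. -/
noncomputable def hh (x : List Bool) : ℕ := (c.k + 1) * Sel.sh M c.c x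

/-- The number of bits of the number of coins. -/
noncomputable def lax (x : List Bool) : ℕ := min (c.la x) (hh M c x)

/-- The basic numbers. -/
noncomputable def ux (x : List Bool) : Un := ⟨hh M c x, lax M c x, sgf (hh M c x) (lax M c x)⟩

/-- The parameters for an input. -/
noncomputable def parx (x : List Bool) : BP.Par2 :=
  thePar (Sel.sN M c.c x + 1) (ux M c x) (qf (ux M c x)) (Qf (hh M c x))

variable {M c}

theorem sh_le_hh (x : List Bool) : Sel.sh M c.c x ≤ hh M c x :=
  Nat.le_mul_of_pos_left _ (Nat.succ_pos _)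

theorem hh_five (x : List Bool) : 5 ≤ hh M c x :=
  (Sel.five_le_h (M := M) (c := c.c) x).trans (sh_le_hh x)

theorem hh_pos (x : List Bool) : 1 ≤ hh M c x := by
  have := hh_five (M := M) (c := c) x
  omega

theorem cbx (x : List Bool) : Cb (ux M c x) := cb_sgf (hh_five x) (min_le_right _ _)

theorem ppx (x : List Bool) :
    PP (ux M c x) (qf (ux M c x)) (Qf (hh M c x)) := pp_all (cbx x)

theorem ux_h (x : List Bool) : (ux M c x).h = hh M c x := rfl

theorem pow_sh_le (x : List Bool) : 2 ^ Sel.sh M c.c x ≤ 2 ^ hh M c x :=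
  Nat.pow_le_pow_right (by norm_num) (sh_le_hh x)

theorem n_le (x : List Bool) : (parx M c x).n ≤ 2 ^ hh M c x :=
  le_trans (Sel.N_lt x) (pow_sh_le x)

theorem T_le (x : List Bool) : Sel.sT c.c x ≤ 2 ^ Sel.sh M c.c x := by
  refine le_trans ?_ (Sel.NT_lt' (M := M) (c := c.c) x).le
  exact Nat.le_mul_of_pos_left _ (by have := Sel.sN_pos (M := M) (c := c.c) x; omega)

theorem len_le (x : List Bool) : x.length + 2 ≤ 2 ^ hh M c x :=
  (Sel.n_lt x).le.trans (pow_sh_le x)

theorem lfx_hh : LFx (hh M c) := LF.mul (LF.const (c.k + 1)) (Sel.lfx_h (M := M) (c := c.c))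

theorem lfx_la : LFx (lax M c) := LF.min c.lf lfx_hh

/-- Powers of two with exponent `O(h)`. -/
theorem lfx_two_pow {f : List Bool → ℕ} (hf : LFx f) {d : ℕ} (hd : ∀ x, f x ≤ d * hh M c x) :
    LFx (fun x => 2 ^ f x) := by
  refine LF.pow (LF.const 2) hf ?_
  have h1 : LFx (fun x => (x.length + 2) * (Sel.sN M c.c x * Sel.sT c.c x)) :=
    (LF.len.add (LF.const 2)).mul (LF.mul Sel.lfx_N Sel.lfx_T)
  refine (Sel.two_pow_log (k := 0) (LF.pb h1) (d * (c.k + 1))).of_le
    (fun x _ => Nat.pow_le_pow_right (by norm_num) ((hd x).trans (le_of_eq ?_)))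
  unfold hh Sel.sh
  ring

theorem lfx_sg : LFx (fun x => sgf (hh M c x) (lax M c x)) := by
  unfold Sel.LFx sgf rt
  have hL : ∀ m, LF (fun x _ => lax M c x : Fn m) := fun m => (lfx_la (M := M) (c := c)).lf m
  have hL2 : ∀ m, LF (fun x _ => Nat.log 2 (hh M c x) + 1 : Fn m) :=
    fun m => (LF.log2 ((lfx_hh (M := M) (c := c)).lf m)).succ
  have h1 := LF.least (k := 0)
    (n := fun x _ => (lax M c x) ^ 1 + 1)
    (P := fun x a => (lax M c x) ^ 1 < (a 0 + 1) ^ 3)
    (LFP.lt ((hL 1).powConst 1) ((LF.proj 0).succ.powConst 3)) ((hL 0).powConst 1).succ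
  have h2 := LF.least (k := 0)
    (n := fun x _ => (Nat.log 2 (hh M c x) + 1) ^ 1 + 1)
    (P := fun x a => (Nat.log 2 (hh M c x) + 1) ^ 1 < (a 0 + 1) ^ 2)
    (LFP.lt ((hL2 1).powConst 1) ((LF.proj 0).succ.powConst 2)) ((hL2 0).powConst 1).succ
  refine (LF.max (LF.max (LF.const 1) h1) h2).congr (fun x a => ?_)
  simp only [Fin.cons_zero]

theorem lfx_rk : LFx (fun x => (ux M c x).rk) :=
  (LF.div (lfx_la (M := M) (c := c)) (lfx_sg (M := M) (c := c))).succ

theorem lfx_R : LFx (fun x => (ux M c x).R) :=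
  (LF.div (lfx_hh (M := M) (c := c)) (lfx_sg (M := M) (c := c))).succ

theorem lfx_r : LFx (fun x => pr (ux M c x)) := by
  unfold pr rr
  exact (LF.add (LF.add lfx_rk (LF.log2 lfx_R)) (LF.const ce))

theorem lfx_q : LFx (fun x => qf (ux M c x)) := by
  unfold qf
  refine Q.lf_nxp (lfx_two_pow (M := M) (c := c) (LF.mul (LF.const ca) lfx_R) (d := 2000)
    (fun x => ?_))
  have := (ppx (M := M) (c := c) x).R_le_two
  rw [ux_h] at this
  simp only [ca]
  omega

theorem lfx_Q : LFx (fun x => Qf (hh M c x)) := by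
  unfold Qf
  exact Q.lf_nxp (lfx_two_pow (M := M) (c := c) (LF.mul (LF.const cQ) lfx_hh) (d := cQ)
    (fun x => le_rfl))

theorem lfx_b : LFx (fun x => pb (ux M c x)) := by
  unfold pb
  exact ((LF.mul (LF.const cb) lfx_hh).div (LF.mul (LF.const ca) lfx_R)).succ

theorem lfx_K : LFx (fun x => pK (ux M c x)) := by
  unfold pK
  exact ((LF.add lfx_la (LF.const 5)).div lfx_rk).succ

theorem lfx_S : LFx (fun x => pS (ux M c x)) := by
  unfold pS
  exact LF.add lfx_K (((LF.mul (LF.const 2) lfx_hh).div (LF.mul (LF.const ca) lfx_R)).add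
    (LF.const 2))

theorem lfx_Th1 : LFx (fun x => pTh1 (hh M c x)) :=
  lfx_two_pow (M := M) (c := c) (LF.mul (LF.const cT) lfx_hh) (d := cT) (fun _ => le_rfl)

theorem lfx_D : LFx (fun x => pD (hh M c x)) :=
  lfx_two_pow (M := M) (c := c) (LF.mul (LF.const cD) lfx_hh) (d := cD) (fun _ => le_rfl)

theorem lfx_Om : LFx (fun x => 2 ^ (cO * hh M c x)) :=
  lfx_two_pow (M := M) (c := c) (LF.mul (LF.const cO) lfx_hh) (d := cO) (fun _ => le_rfl)

theorem lfx_JF : LFx (fun x => pJF (ux M c x)) := by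
  unfold pJF
  exact (LF.log2 lfx_r).succ

theorem lfx_JN : LFx (fun x => pJN (ux M c x)) := by
  unfold pJN
  exact (LF.log2 lfx_sg).add (LF.const cJ)

theorem lfx_cm : LFx (fun x => pcm (ux M c x)) := by
  unfold pcm
  exact (LF.add lfx_b lfx_S).succ

theorem lfx_nd : LFx (fun x => pnd (ux M c x)) := by
  unfold pnd
  exact (LF.div lfx_hh (LF.mul (LF.const ca) lfx_R)).succ

theorem lfx_c0 : LFx (fun x => pc0 (ux M c x)) := lfx_nd

theorem lfx_L : LFx (fun x => pL (ux M c x)) := by
  unfold pL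
  exact LF.mul (LF.const 310) lfx_r

theorem lfx_DC : LFx (fun x => pDC (ux M c x)) := by
  unfold pDC
  exact (LF.div lfx_L lfx_c0).succ

theorem lfx_lw : LFx (fun x => plw (ux M c x)) := by
  unfold plw
  exact LF.mul (LF.const 2) lfx_DC

theorem lfx_JH : LFx (fun x => pJH (ux M c x)) := by
  unfold pJH
  exact LF.max lfx_JF lfx_JN

theorem lfx_m : LFx (fun x => pm (ux M c x)) := LF.const 18

theorem lfx_Lam : LFx (fun x => qf (ux M c x) ^ 34) := LF.powConst lfx_q 34

theorem lfx_powb : LFx (fun x => qf (ux M c x) ^ pb (ux M c x)) := by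
  have h1 : LFx (fun x => 2 ^ (2 * (2200 * hh M c x))) :=
    lfx_two_pow (M := M) (c := c) (LF.mul (LF.const 2) (LF.mul (LF.const 2200) lfx_hh))
      (d := 4400) (fun x => by omega)
  have h2 : PB (fun x _ => qf (ux M c x) ^ pb (ux M c x) : Fn 0) :=
    PB.of_le (LF.pb h1) (fun x _ => (ppx (M := M) (c := c) x).pow_b_le)
  exact LF.pow lfx_q lfx_b h2

theorem lfx_Th : LFx (fun x => (parx M c x).Th) := by
  have h1 : LFx (fun x => 2 ^ (ux M c x).rk) :=
    lfx_two_pow (M := M) (c := c) lfx_rk (d := 2) (fun x => by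
      have h1 := (ppx (M := M) (c := c) x).rk_le
      have h2 := hh_pos (M := M) (c := c) x
      rw [ux_h] at h1
      omega)
  have h2 := LF.mul (LF.mul h1 (lfx_powb (M := M) (c := c))) (lfx_Th1 (M := M) (c := c))
  refine LF.congr h2 (fun x _ => ?_)
  simp only [BP.Par.Th, parx, thePar, ux_h]

/-- The static digits are computable in logarithmic space, the seed is an argument. -/
theorem lf_stat {k : ℕ} {sd j : Fn k} (hsd : LF sd) (hj : LF j) :
    LF (fun x a => statN (parx M c x) (sd x a) (j x a)) := by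
  unfold statN
  have hc : ∀ i, LFP (fun x a => j x a = i) := fun i => LFP.eq hj (LF.const i)
  have h0 : LF (fun x _ => (parx M c x).n : Fn k) :=
    ((Sel.lfx_N (M := M) (c := c.c)).lf k).succ.congr (fun _ _ => by simp only [parx, thePar, ux_h])
  have h1 : LF (fun x _ => (parx M c x).q : Fn k) := ((lfx_q (M := M) (c := c)).lf k).congr (fun _ _ => by simp only [parx, thePar, ux_h])
  have h2 : LF (fun x _ => (parx M c x).b : Fn k) := ((lfx_b (M := M) (c := c)).lf k).congr (fun _ _ => by simp only [parx, thePar, ux_h])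
  have h3 : LF (fun x _ => (parx M c x).r : Fn k) := ((lfx_r (M := M) (c := c)).lf k).congr (fun _ _ => by simp only [parx, thePar, ux_h])
  have h4 : LF (fun x _ => (parx M c x).rk : Fn k) := ((lfx_rk (M := M) (c := c)).lf k).congr (fun _ _ => by simp only [parx, thePar, ux_h])
  have h5 : LF (fun x _ => (parx M c x).K : Fn k) := ((lfx_K (M := M) (c := c)).lf k).congr (fun _ _ => by simp only [parx, thePar, ux_h])
  have h6 : LF (fun x _ => (parx M c x).Th1 : Fn k) := ((lfx_Th1 (M := M) (c := c)).lf k).congr (fun _ _ => by simp only [parx, thePar, ux_h])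
  have h7 : LF (fun x _ => (parx M c x).D : Fn k) := ((lfx_D (M := M) (c := c)).lf k).congr (fun _ _ => by simp only [parx, thePar, ux_h])
  have h8 : LF (fun x _ => (parx M c x).JF : Fn k) := ((lfx_JF (M := M) (c := c)).lf k).congr (fun _ _ => by simp only [parx, thePar, ux_h])
  have h9 : LF (fun x _ => (parx M c x).JN : Fn k) := ((lfx_JN (M := M) (c := c)).lf k).congr (fun _ _ => by simp only [parx, thePar, ux_h])
  have h10 : LF (fun x _ => (parx M c x).Th : Fn k) := (lfx_Th (M := M) (c := c)).lf k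
  have h11 : LF (fun x _ => (parx M c x).cmax : Fn k) := ((lfx_cm (M := M) (c := c)).lf k).congr (fun _ _ => by simp only [parx, thePar, ux_h])
  have h12 : LF (fun x _ => (parx M c x).nd : Fn k) := ((lfx_nd (M := M) (c := c)).lf k).congr (fun _ _ => by simp only [parx, thePar, ux_h])
  have h13 : LF (fun x _ => (parx M c x).Lam : Fn k) := ((lfx_Lam (M := M) (c := c)).lf k).congr (fun _ _ => by simp only [parx, thePar, ux_h])
  have h14 : LF (fun x _ => (parx M c x).Q : Fn k) := ((lfx_Q (M := M) (c := c)).lf k).congr (fun _ _ => by simp only [parx, thePar, ux_h])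
  have h15 : LF (fun x _ => (parx M c x).DC : Fn k) := ((lfx_DC (M := M) (c := c)).lf k).congr (fun _ _ => by simp only [parx, thePar, ux_h])
  have h16 : LF (fun x _ => (parx M c x).c0 : Fn k) := ((lfx_c0 (M := M) (c := c)).lf k).congr (fun _ _ => by simp only [parx, thePar, ux_h])
  have h17 : LF (fun x _ => (parx M c x).lw : Fn k) := ((lfx_lw (M := M) (c := c)).lf k).congr (fun _ _ => by simp only [parx, thePar, ux_h])
  have h18 : LF (fun x _ => (parx M c x).Om : Fn k) := ((lfx_Om (M := M) (c := c)).lf k).congr (fun _ _ => by simp only [parx, thePar, ux_h])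
  have h19 : LF (fun x _ => (parx M c x).m : Fn k) := ((lfx_m (M := M) (c := c)).lf k).congr (fun _ _ => rfl)
  have h20 : LF (fun x _ => (parx M c x).S : Fn k) := ((lfx_S (M := M) (c := c)).lf k).congr (fun _ _ => by simp only [parx, thePar, ux_h])
  have hS : LF (fun x _ => 6 * (parx M c x).S : Fn k) := (LF.const 6).mul h20
  have h64 : LF (fun x _ => 64 + 6 * (parx M c x).S : Fn k) := (LF.const 64).add hS
  have ho : LF (fun x a => sd x a / (parx M c x).D ^ (j x a - 64) % (parx M c x).D) :=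
    (Q.lf_divPow h7 hsd (hj.sub (LF.const 64))).mod h7
  have hw : LF (fun x a => sd x a / (parx M c x).D ^ (6 * (parx M c x).S) /
      (parx M c x).Q ^ (j x a - (64 + 6 * (parx M c x).S)) % (parx M c x).Q) :=
    (Q.lf_divPow h14 (Q.lf_divPow h7 hsd hS) (hj.sub h64)).mod h14
  exact LF.ite (hc 0) h0 (LF.ite (hc 1) h1 (LF.ite (hc 2) h2 (LF.ite (hc 3) h3
    (LF.ite (hc 4) h4 (LF.ite (hc 5) h5 (LF.ite (hc 6) h6 (LF.ite (hc 7) h7 (LF.ite (hc 8) h8
    (LF.ite (hc 9) h9 (LF.ite (hc 10) h10 (LF.ite (hc 11) h11 (LF.ite (hc 12) h12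
    (LF.ite (hc 13) h13 (LF.ite (hc 14) h14 (LF.ite (hc 15) h15 (LF.ite (hc 16) h16
    (LF.ite (hc 17) h17 (LF.ite (hc 18) h18 (LF.ite (hc 19) h19 (LF.ite (hc 20) h20
    (LF.ite (LFP.lt hj (LF.const 64)) LF.zero (LF.ite (LFP.lt hj h64) ho hw))))))))))))))))))))))

end mach

end Vale.Agent.P313.NW.H427L
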