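import Vale.Agent.P313.NW.H427L.Par5
import Vale.Agent.P313.NW.H974.All
import Vale.Agent.P313.NW.BP.Inst

/-!
All numerical hypotheses for the concrete parameters.
-/

namespace Vale.Agent.P313.NW.H427L

open Vale.Agent.P313.NW.BP

variable {M : RTM} {c : Cf}

theorem parx_n (x : List Bool) : (parx M c x).n = Sel.sN M c.c x + 1 := by simp only [parx, thePar, ux_h]

theorem parx_b (x : List Bool) : (parx M c x).b = pb (ux M c x) := by
  simp only [parx, thePar, ux_h]

theorem parx_r (x : List Bool) : (parx M c x).r = pr (ux M c x) := by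
  simp only [parx, thePar, ux_h]

theorem parx_rk (x : List Bool) : (parx M c x).rk = (ux M c x).rk := by simp only [parx, thePar, ux_h]

theorem parx_K (x : List Bool) : (parx M c x).K = pK (ux M c x) := by
  simp only [parx, thePar, ux_h]

theorem parx_Th1 (x : List Bool) : (parx M c x).Th1 = pTh1 (hh M c x) := by
  simp only [parx, thePar, ux_h]

theorem parx_JF (x : List Bool) : (parx M c x).JF = pJF (ux M c x) := by
  simp only [parx, thePar, ux_h]

theorem parx_JN (x : List Bool) : (parx M c x).JN = pJN (ux M c x) := by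
  simp only [parx, thePar, ux_h]

theorem parx_JH (x : List Bool) : (parx M c x).JH = pJH (ux M c x) := by
  simp only [parx, thePar, Par2.JH, pJH]

theorem parx_cmax (x : List Bool) : (parx M c x).cmax = pcm (ux M c x) := by
  simp only [parx, thePar, ux_h]

theorem parx_nd (x : List Bool) : (parx M c x).nd = pnd (ux M c x) := by
  simp only [parx, thePar, ux_h]

theorem parx_Lam (x : List Bool) : (parx M c x).Lam = qf (ux M c x) ^ 34 := by
  simp only [parx, thePar, ux_h]

theorem parx_c0 (x : List Bool) : (parx M c x).c0 = pc0 (ux M c x) := by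
  simp only [parx, thePar, ux_h]

theorem parx_Om (x : List Bool) : (parx M c x).Om = 2 ^ (cO * hh M c x) := by
  simp only [parx, thePar, ux_h]

theorem parx_Th (x : List Bool) : (parx M c x).Th =
    (thePar (Sel.sN M c.c x + 1) (ux M c x) (qf (ux M c x)) (Qf (hh M c x))).Th := by
  unfold parx
  rfl

/-- Hypotheses of the composition. -/
theorem numOK (x : List Bool) : H974.NumOK (parx M c x).toPar := by
  have p := ppx (M := M) (c := c) x
  have hn := n_le (M := M) (c := c) x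
  refine ⟨?_, ?_, ?_, ?_, ?_, ?_, ?_, ?_, ?_, ?_⟩
  · rw [parx_n]
    have := Sel.sN_pos (M := M) (c := c.c) x
    omega
  · rw [parx_r]; exact p.r_pos
  · rw [parx_r, parx_JF]; exact (PP.JF_gt _).le
  · rw [parx_r, parx_JF]; exact p.JF_le
  · rw [parx_r, parx_q]; exact p.three_r_le
  · rw [parx_q]; exact le_trans (by norm_num) p.q_ge_64
  · rw [parx_q, parx_Th]; exact p.q_seven_le _
  · rw [parx_r, parx_Th1]; exact p.Th1_ge hn
  · rw [parx_q, parx_b, parx_JN, parx_r, parx_Th1]; exact p.JN_big hn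
  · exact D_pos' x

theorem runOK (x : List Bool) : H974.RunOK (parx M c x).toPar (parx M c x).S := by
  have p := ppx (M := M) (c := c) x
  have hn := n_le (M := M) (c := c) x
  refine ⟨?_, ?_, ?_, ?_⟩
  · rw [parx_S, parx_q]; exact p.S_sq
  · rw [parx_S, parx_K]; exact (PP.K_le_S _).trans (Nat.le_succ _)
  · rw [parx_S, parx_K, parx_q]; exact p.n_big hn
  · rw [parx_S, parx_rk, parx_q, parx_b]; exact p.b_big hn

/-- The number of coins times `32` over the gap. -/
theorem T_ok {x : List Bool} {T : ℕ} (hT : T ≤ 2 ^ (lax M c x + 5)) :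
    T ≤ 2 ^ ((parx M c x).rk * (parx M c x).K) := by
  rw [parx_rk, parx_K]
  exact (ppx (M := M) (c := c) x).T_small hT

/-- The condition on `q ^ b` with a small error. -/
theorem E_ok {x : List Bool} {E : ℕ} (hE : E ≤ 2 ^ (hh M c x + 5)) :
    6 * E * (parx M c x).n * ((parx M c x).S + 1) * 2 ^ ((parx M c x).rk * (parx M c x).S) ≤
      (parx M c x).q ^ (parx M c x).b := by
  rw [parx_S, parx_rk, parx_q, parx_b]
  exact (ppx (M := M) (c := c) x).b_bigE (n_le (M := M) (c := c) x) hE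

/-- Exponents of weights. -/
theorem hcm (x : List Bool) : (parx M c x).b ≤ (parx M c x).cmax ∧
    2 * (parx M c x).n < (parx M c x).q ^ ((parx M c x).cmax + 1 - (parx M c x).b) := by
  have p := ppx (M := M) (c := c) x
  have hn := n_le (M := M) (c := c) x
  rw [parx_b, parx_cmax, parx_q]
  refine ⟨by unfold pcm; omega, ?_⟩
  refine lt_of_lt_of_le (p.n_big hn) (Nat.pow_le_pow_right p.q_pos ?_)
  unfold pcm
  omega

/-- `b + S ≤ cmax`. -/
theorem bS_le (x : List Bool) : (parx M c x).b + (parx M c x).S ≤ (parx M c x).cmax := by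
  rw [parx_b, parx_cmax, parx_S]
  unfold pcm
  omega

/-! ### The sampler -/

/-- Bound for the functions which are averaged. -/
noncomputable def Bf (M : RTM) (c : Cf) (x : List Bool) : ℕ :=
  (parx M c x).r * (parx M c x).q ^ (parx M c x).cmax * (parx M c x).Lam ^ 2

theorem Bf_eq (x : List Bool) : Bf M c x = pr (ux M c x) *
    qf (ux M c x) ^ pcm (ux M c x) * (qf (ux M c x) ^ 34) ^ 2 := by
  unfold Bf
  rw [parx_r, parx_q, parx_cmax, parx_Lam]

/-- The accuracy. -/
noncomputable def epsx (M : RTM) (c : Cf) (x : List Bool) : ℝ :=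
  PP.peps (Sel.sN M c.c x + 1) (ux M c x) (qf (ux M c x)) (Qf (hh M c x))

theorem epsx_pos (x : List Bool) : 0 < epsx M c x := (ppx (M := M) (c := c) x).peps_pos _

theorem smp_k (x : List Bool) : 2 * ((parx M c x).DC + 1) ≤ (parx M c x).lw + 2 := by
  rw [parx_DC, parx_lw]
  unfold plw
  omega

theorem smp_del (x : List Bool) : (epsx M c x + (Bf M c x : ℝ) *
    ((1 + ((parx M c x).q : ℝ) ^ (parx M c x).c0 / (parx M c x).Q) ^ (parx M c x).DC - 1)) *
    (((parx M c x).Th : ℝ) * ((parx M c x).D : ℝ)) ≤ 1 := by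
  have h1 := (ppx (M := M) (c := c) x).del_le (Sel.sN M c.c x + 1)
  rw [parx_q, parx_c0, parx_Q, parx_DC, parx_Th, parx_D, Bf_eq, ← mul_assoc]
  exact h1

theorem smp_c0 (x : List Bool) : 0 < (parx M c x).c0 := by
  rw [parx_c0]
  exact PP.c0_pos _

theorem smp_L (x : List Bool) : (parx M c x).L ≤ (parx M c x).c0 * (parx M c x).DC := by
  rw [parx_L, parx_c0, parx_DC]
  exact PP.L_le _

theorem smp_DQ (x : List Bool) : 2 * (parx M c x).DC ≤ (parx M c x).Q := by
  rw [parx_DC, parx_Q, two_mul]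
  exact (ppx (M := M) (c := c) x).two_DC_le

theorem smp_N1 (x : List Bool) : 8 * (6 * (parx M c x).S * (((parx M c x).r + 1) *
    ((parx M c x).n * ((parx M c x).n * 2)))) ≤ (parx M c x).D := by
  have h1 := (ppx (M := M) (c := c) x).D_ge (n_le (M := M) (c := c) x)
  rw [parx_S, parx_r, parx_D]
  exact h1

theorem smp_N2 (x : List Bool) :
    16 * ((3 * (parx M c x).S * ((parx M c x).r * ((parx M c x).n * (parx M c x).n)) : ℕ) *
      ((parx M c x).q : ℝ) ^ (parx M c x).L *
        (2 ^ ((parx M c x).lw + 1) * ((Bf M c x : ℝ) ^ 2 / (epsx M c x ^ 2 * (parx M c x).Q) +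
          ((2 * (parx M c x).DC : ℕ) : ℝ) / (parx M c x).Q) ^ ((parx M c x).DC + 1))) ≤ 1 := by
  have h0 : Sel.sN M c.c x + 1 ≤ 2 ^ hh M c x := le_trans (Sel.N_lt x) (pow_sh_le x)
  have h1 := (ppx (M := M) (c := c) x).union_real h0
  rw [parx_n, parx_S, parx_r, parx_q, parx_L, parx_lw, parx_Q, parx_DC, Bf_eq]
  refine le_trans (le_of_eq ?_) h1
  unfold epsx
  push_cast
  ring

theorem smp_N3 (x : List Bool) :
    (48 * (parx M c x).S * (parx M c x).JH + 1) * ((2 ^ (parx M c x).JH + 1) ^ 2 *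
      (4 * (parx M c x).n + 1) ^ 2 * (2 * 2 ^ (8000 * hh M c x) * 2 ^ (parx M c x).JH *
        (4 * (parx M c x).n + 1) * ((parx M c x).Th * (parx M c x).D)) ^ 2) ≤
      (parx M c x).Q := by
  have h0 : Sel.sN M c.c x + 1 ≤ 2 ^ hh M c x := le_trans (Sel.N_lt x) (pow_sh_le x)
  have h1 := (ppx (M := M) (c := c) x).hash_le h0
  rw [parx_S, parx_JH, parx_n, parx_Th, parx_D, parx_Q]
  rw [ux_h] at h1
  exact h1

/-! ### Registers -/

/-- Bound for the basic quantities. -/
noncomputable def Mb (M : RTM) (c : Cf) (x : List Bool) : ℕ := 2 ^ ((cQ + 1) * hh M c x)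

theorem Mb_pow_le (x : List Bool) : Mb M c x ^ 12 ≤ Bx M c x := by
  unfold Mb Bx
  rw [← pow_mul]
  exact PP.pow_mono (by simp only [cQ, cB]; omega)

theorem Mb_le (x : List Bool) : Mb M c x ≤ Bx M c x :=
  (Nat.le_self_pow (by norm_num) _).trans (Mb_pow_le x)

theorem four_le_Mb (x : List Bool) : 18 ≤ Mb M c x := by
  have h1 := hh_pos (M := M) (c := c) x
  calc 18 ≤ 2 ^ 5 := by norm_num
    _ ≤ Mb M c x := PP.pow_mono (by simp only [cQ]; omega)

theorem n_lt_Mb (x : List Bool) : (parx M c x).n < Mb M c x := by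
  have h1 := hh_pos (M := M) (c := c) x
  refine lt_of_le_of_lt (n_le x) ?_
  unfold Mb
  exact Nat.pow_lt_pow_right (by norm_num) (by simp only [cQ]; omega)

theorem qc_le_Mb (x : List Bool) : (parx M c x).q ^ (parx M c x).cmax ≤ Mb M c x := by
  rw [parx_q, parx_cmax]
  exact (ppx (M := M) (c := c) x).pow_cm_le.trans
    (PP.pow_mono (by rw [ux_h]; simp only [cQ]; omega))

theorem qb_le_Mb (x : List Bool) : (parx M c x).q ^ (parx M c x).b + 1 ≤ Mb M c x := by
  rw [parx_q, parx_b]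
  have h1 := (ppx (M := M) (c := c) x).pow_b_le
  have h2 := hh_pos (M := M) (c := c) x
  have h3 : 1 ≤ 2 ^ (2 * (2200 * hh M c x)) := Nat.one_le_two_pow
  calc qf (ux M c x) ^ pb (ux M c x) + 1
      ≤ 2 ^ (2 * (2200 * hh M c x)) + 2 ^ (2 * (2200 * hh M c x)) := Nat.add_le_add h1 h3
    _ = 2 ^ (2 * (2200 * hh M c x) + 1) := by rw [pow_succ]; ring
    _ ≤ Mb M c x := PP.pow_mono (by simp only [cQ]; omega)

theorem lw_lt_Mb (x : List Bool) : (parx M c x).lw < Mb M c x := by
  rw [parx_lw]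
  have h1 := (ppx (M := M) (c := c) x).DC_le
  have h2 := hh_pos (M := M) (c := c) x
  rw [ux_h] at h1
  unfold plw
  have h3 : 16123 * hh M c x ≤ 2 ^ (14 + hh M c x) := PP.lin_le _ 14 (by norm_num)
  have h4 : 2 ^ (14 + hh M c x) ≤ Mb M c x := PP.pow_mono (by simp only [cQ]; omega)
  omega

theorem F2_le_Mb (x : List Bool) : 2 ^ (parx M c x).JF ≤ Mb M c x := by
  rw [parx_JF]
  have h1 := (ppx (M := M) (c := c) x).JF_le
  have h2 := (ppx (M := M) (c := c) x).r_le_h
  have h3 := hh_pos (M := M) (c := c) x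
  rw [ux_h] at h2
  have h4 : 52 * hh M c x ≤ 2 ^ (6 + hh M c x) := PP.lin_le _ 6 (by norm_num)
  have h5 : 2 ^ (6 + hh M c x) ≤ Mb M c x := PP.pow_mono (by simp only [cQ]; omega)
  omega

theorem Om_le_Mb (x : List Bool) : 2 * (parx M c x).Om ≤ Mb M c x := by
  rw [parx_Om, ← pow_succ']
  have h3 := hh_pos (M := M) (c := c) x
  exact PP.pow_mono (by simp only [cO, cQ]; omega)

/-- `Om` is large enough. -/
theorem Om_ge (x : List Bool) :
    6 * (parx M c x).n ^ 2 * 2 ^ (parx M c x).rk * (parx M c x).Th ≤ (parx M c x).Om := by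
  rw [parx_Om, parx_Th, parx_rk]
  have h1 := (ppx (M := M) (c := c) x).Th_le (Sel.sN M c.c x + 1)
  have h2 := n_le (M := M) (c := c) x
  have h3 := (ppx (M := M) (c := c) x).rk_le
  have h4 := hh_pos (M := M) (c := c) x
  generalize (thePar (Sel.sN M c.c x + 1) (ux M c x) (qf (ux M c x))
    (Qf (hh M c x))).Th = Th at h1 ⊢
  rw [ux_h] at h3
  have h5 : 2 ^ (ux M c x).rk ≤ 2 ^ (hh M c x + 1) := PP.pow_mono h3
  calc 6 * (parx M c x).n ^ 2 * 2 ^ (ux M c x).rk * Th
      ≤ 2 ^ 3 * (2 ^ hh M c x) ^ 2 * 2 ^ (hh M c x + 1) * 2 ^ (1021201 * hh M c x) :=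
        Nat.mul_le_mul (Nat.mul_le_mul (Nat.mul_le_mul (by norm_num)
          (Nat.pow_le_pow_left h2 2)) h5) h1
    _ = 2 ^ (3 + hh M c x * 2 + (hh M c x + 1) + 1021201 * hh M c x) := by
        simp only [← pow_add, ← pow_mul]
    _ ≤ 2 ^ (cO * hh M c x) := PP.pow_mono (by simp only [cO]; omega)

theorem pr_le_Mb (x : List Bool) : 2 * 4 ^ (parx M c x).r * (parx M c x).Th ≤ Mb M c x := by
  rw [parx_Th, parx_r]
  have h1 := (ppx (M := M) (c := c) x).Th_le (Sel.sN M c.c x + 1)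
  have h2 := (ppx (M := M) (c := c) x).r_le_h
  have h4 := hh_pos (M := M) (c := c) x
  have h5 : 4 ^ pr (ux M c x) = 2 ^ (2 * pr (ux M c x)) := by
    rw [pow_mul]
    norm_num
  rw [h5]
  generalize (thePar (Sel.sN M c.c x + 1) (ux M c x) (qf (ux M c x))
    (Qf (hh M c x))).Th = Th at h1 ⊢
  rw [ux_h] at h2
  have h6 : 2 ^ (2 * pr (ux M c x)) ≤ 2 ^ (52 * hh M c x) := PP.pow_mono (by omega)
  calc 2 * 2 ^ (2 * pr (ux M c x)) * Th
      ≤ 2 ^ 1 * 2 ^ (52 * hh M c x) * 2 ^ (1021201 * hh M c x) :=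
        Nat.mul_le_mul (Nat.mul_le_mul (by norm_num) h6) h1
    _ = 2 ^ (1 + 52 * hh M c x + 1021201 * hh M c x) := by simp only [← pow_add]
    _ ≤ Mb M c x := PP.pow_mono (by simp only [cQ]; omega)

/-- `Om` bounds the entries of the matrix of the Neumann series. -/
theorem Om_ge_Hm (x : List Bool) :
    2 ^ ((parx M c x).r + 4) * (parx M c x).Th ≤ (parx M c x).Om := by
  rw [parx_Om, parx_Th, parx_r]
  have h1 := (ppx (M := M) (c := c) x).Th_le (Sel.sN M c.c x + 1)
  have h2 := (ppx (M := M) (c := c) x).r_le_h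
  have h4 := hh_pos (M := M) (c := c) x
  generalize (thePar (Sel.sN M c.c x + 1) (ux M c x) (qf (ux M c x))
    (Qf (hh M c x))).Th = Th at h1 ⊢
  rw [ux_h] at h2
  calc 2 ^ (pr (ux M c x) + 4) * Th
      ≤ 2 ^ (30 * hh M c x) * 2 ^ (1021201 * hh M c x) :=
        Nat.mul_le_mul (PP.pow_mono (by omega)) h1
    _ = 2 ^ (30 * hh M c x + 1021201 * hh M c x) := by rw [← pow_add]
    _ ≤ 2 ^ (cO * hh M c x) := PP.pow_mono (by simp only [cO]; omega)

/-- The scale of the walks of kind `0` and `2`. -/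
theorem wB (x : List Bool) : 4 ^ 2 ^ (parx M c x).JF ≤ 2 ^ (104 * hh M c x) := by
  rw [parx_JF]
  exact (ppx (M := M) (c := c) x).four_pow_le

/-- The scale of the walk of the Neumann series. -/
theorem wXB (x : List Bool) : (parx M c x).RX ^ 2 ^ (parx M c x).JN ≤ 2 ^ (8000 * hh M c x) := by
  have h1 := (ppx (M := M) (c := c) x).RX_pow_le
  rw [parx_JN]
  exact h1

theorem w0_le_Mb (x : List Bool) : 4 ^ 2 ^ (parx M c x).JF ≤ Mb M c x :=
  (wB x).trans (PP.pow_mono (by simp only [cQ]; omega))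

theorem wX_le_Mb (x : List Bool) : (parx M c x).RX ^ 2 ^ (parx M c x).JN ≤ Mb M c x :=
  (wXB x).trans (PP.pow_mono (by simp only [cQ]; omega))

theorem wB_le (x : List Bool) : 4 ^ 2 ^ (parx M c x).JF ≤ Bx M c x :=
  (wB x).trans (PP.pow_mono (by simp only [cB]; omega))

theorem wXB_le (x : List Bool) : (parx M c x).RX ^ 2 ^ (parx M c x).JN ≤ Bx M c x :=
  (wXB x).trans (PP.pow_mono (by simp only [cB]; omega))

theorem top_le_B (x : List Bool) : (parx M c x).S * (parx M c x).m ≤ Bx M c x := by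
  have h1 := parLe (M := M) (c := c) x
  calc (parx M c x).S * (parx M c x).m
      ≤ 2 ^ ((cQ + 1) * hh M c x) * 2 ^ ((cQ + 1) * hh M c x) := Nat.mul_le_mul h1.S h1.m
    _ = 2 ^ (2 * ((cQ + 1) * hh M c x)) := by rw [← pow_add]; ring_nf
    _ ≤ Bx M c x := PP.pow_mono (by simp only [cQ, cB]; omega)

theorem B18 (x : List Bool) : 18 ≤ Bx M c x := (four_le_Mb x).trans (Mb_le x)

theorem sumB (x : List Bool) : (parx M c x).Q * ((parx M c x).r *
    ((parx M c x).q ^ (parx M c x).cmax * (parx M c x).Lam ^ 2)) ≤ Bx M c x := by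
  have h1 := parLe (M := M) (c := c) x
  have h2 := (ppx (M := M) (c := c) x).Bf_le
  have h3 : (parx M c x).r * ((parx M c x).q ^ (parx M c x).cmax * (parx M c x).Lam ^ 2) ≤
      2 ^ (1727000 * hh M c x) := by
    rw [← mul_assoc, parx_r, parx_q, parx_cmax, parx_Lam]
    exact h2
  calc _ ≤ 2 ^ ((cQ + 1) * hh M c x) * 2 ^ (1727000 * hh M c x) := Nat.mul_le_mul h1.Q h3
    _ = 2 ^ ((cQ + 1) * hh M c x + 1727000 * hh M c x) := by rw [← pow_add]
    _ ≤ Bx M c x := PP.pow_mono (by simp only [cQ, cB]; omega)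

theorem DCB (x : List Bool) : (parx M c x).DC * (parx M c x).c0 ≤ Bx M c x := by
  have h1 := parLe (M := M) (c := c) x
  calc (parx M c x).DC * (parx M c x).c0
      ≤ 2 ^ ((cQ + 1) * hh M c x) * 2 ^ ((cQ + 1) * hh M c x) := Nat.mul_le_mul h1.DC h1.c0
    _ = 2 ^ (2 * ((cQ + 1) * hh M c x)) := by rw [← pow_add]; ring_nf
    _ ≤ Bx M c x := PP.pow_mono (by simp only [cQ, cB]; omega)

/-! ### One stage -/

theorem q_prime (x : List Bool) : (parx M c x).q.Prime := by
  rw [parx_q]; exact (ppx (M := M) (c := c) x).qp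

theorem Q_prime (x : List Bool) : (parx M c x).Q.Prime := by
  rw [parx_Q]; exact (ppx (M := M) (c := c) x).Qp

theorem sixteen (x : List Bool) : 16 ^ ((parx M c x).r + 1) ≤ (parx M c x).q := by
  rw [parx_q, parx_r]; exact (ppx (M := M) (c := c) x).sixteen_pow

theorem kappa (x : List Bool) : (1 - 1 / (2 : ℝ) ^ (parx M c x).rk) ^ 2 ^ (parx M c x).r *
    ((parx M c x).q : ℝ) ^ 6 ≤ 1 := by
  rw [parx_q, parx_r, parx_rk]; exact (ppx (M := M) (c := c) x).kappa_pow

/-- All coordinates. -/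
theorem off_eq (x : List Bool) : (parx M c x).cmax + (parx M c x).nd + 10 * 31 * (parx M c x).r =
    pL (ux M c x) + pcm (ux M c x) + pnd (ux M c x) := by
  rw [parx_cmax, parx_nd, parx_r]
  unfold pL
  omega

theorem lamx (x : List Bool) : ((((parx M c x).cmax + (parx M c x).nd + 10 * 31 *
    (parx M c x).r : ℕ) : ℝ) / (parx M c x).q) ^ 31 ≤ 1 / ((parx M c x).q : ℝ) ^ 23 := by
  rw [off_eq, parx_q]
  exact (ppx (M := M) (c := c) x).lam_le le_rfl

theorem hash_ok (x : List Bool) : 4 * 31 * ((parx M c x).cmax + (parx M c x).nd + 10 * 31 *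
    (parx M c x).r) ^ 2 ≤ (parx M c x).q := by
  rw [off_eq, parx_q]
  have h1 := (ppx (M := M) (c := c) x).Nmax_pow_le
  have h2 := (ppx (M := M) (c := c) x).r_pos
  generalize hm : pL (ux M c x) + pcm (ux M c x) +
    pnd (ux M c x) = m at *
  have hm1 : 1 ≤ m := by
    rw [← hm]
    unfold pL
    omega
  refine le_trans ?_ h1
  calc 4 * 31 * m ^ 2 ≤ (310 * m) ^ 2 := by nlinarith
    _ ≤ (310 * m) ^ 8 := Nat.pow_le_pow_right (by omega) (by norm_num)
    _ ≤ _ := Nat.le_mul_of_pos_left _ (by positivity)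

theorem nd_ok (x : List Bool) : (parx M c x).n ≤ (parx M c x).q ^ (parx M c x).nd := by
  rw [parx_q, parx_nd]
  exact (n_le (M := M) (c := c) x).trans (ppx (M := M) (c := c) x).n_le_nd

end Vale.Agent.P313.NW.H427L
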